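import Mathlib

/-!
# P141, line (A), flow part: the number lines of the pair (third slot, first slot)
-/

namespace Vale.Agent.P141.H863

noncomputable section

/-- `t ^ (-d)` below the numbers of the stage -/
theorem lm_le {t c d s lg M : ℝ} (ht : 0 < t) (ht1 : t ≤ 1) (hc : 0 ≤ c) (hd : 0 ≤ d)
    (hs : 0 ≤ s) (hlg : 1 ≤ lg) (hM : 0 ≤ M) :
    t ^ (-d) * s * M ≤ lg ^ 64 * (t ^ (-(64 * (c + d))) * s * M) := by
  have h1 : t ^ (-d) ≤ t ^ (-(64 * (c + d))) :=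
    Real.rpow_le_rpow_of_exponent_ge ht ht1 (by linarith)
  have h2 : 1 ≤ lg ^ 64 := one_le_pow₀ hlg
  have h3 : 0 ≤ t ^ (-(64 * (c + d))) * s * M := by positivity
  calc t ^ (-d) * s * M ≤ t ^ (-(64 * (c + d))) * s * M :=
        mul_le_mul_of_nonneg_right (mul_le_mul_of_nonneg_right h1 hs) hM
    _ ≤ _ := by nlinarith

/-- **The number of the stack.** -/
theorem num_line {ν ez m ε N0 P B0 B1 D Xx Xm Xc MM : ℝ} (hez : 0 < ez) (hν : ν ^ 2 = ez⁻¹)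
    (hm : 0 < m) (hm1 : m ≤ 1) (hε : ε ^ 2 = √m) (hN0 : 0 ≤ N0) (hP : 0 ≤ P) (hB0 : 0 ≤ B0)
    (hB1 : 0 ≤ B1) (hD : 0 ≤ D) (hDM : D ≤ MM) (hX : Xx = N0 * (ez * m))
    (hXm : Xm ≤ B0 * (ez * D)) (hXc : Xc ≤ (1 + P) * Xx / ez + ε ^ 2 * (B1 * D)) :
    ν ^ 2 * (5 * Xx + 4 * (ε ^ 2)⁻¹ * Xx + ε ^ 2 * Xm) + Xc ≤
      (10 + P + B0 + B1) * (N0 + MM) * √m := by
  have h0 : 0 < √m := Real.sqrt_pos.2 hm
  have h1 : √m * √m = m := Real.mul_self_sqrt hm.le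
  have h2 : √m ≤ 1 := Real.sqrt_le_one.2 hm1
  have h3 : m ≤ √m := by nlinarith
  rw [hν, hε]
  rw [hε] at hXc
  have e1 : ez⁻¹ * (5 * Xx) = 5 * (N0 * m) := by
    rw [hX]
    field_simp
  have e2 : ez⁻¹ * (4 * (√m)⁻¹ * Xx) = 4 * (N0 * √m) := by
    have k1 : m / √m = √m := Real.div_sqrt
    calc ez⁻¹ * (4 * (√m)⁻¹ * Xx) = 4 * N0 * (m / √m) * (ez⁻¹ * ez) := by
          rw [hX]
          ring
      _ = 4 * (N0 * √m) := by
        rw [k1, inv_mul_cancel₀ hez.ne']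
        ring
  have e3 : ez⁻¹ * (√m * Xm) ≤ √m * (B0 * D) := by
    calc ez⁻¹ * (√m * Xm) ≤ ez⁻¹ * (√m * (B0 * (ez * D))) :=
          mul_le_mul_of_nonneg_left (mul_le_mul_of_nonneg_left hXm h0.le) (inv_nonneg.2 hez.le)
      _ = √m * (B0 * D) := by
        field_simp
  have e4 : (1 + P) * Xx / ez = (1 + P) * (N0 * m) := by
    rw [hX]
    field_simp
  rw [e4] at hXc
  have e5 : N0 * m ≤ N0 * √m := mul_le_mul_of_nonneg_left h3 hN0
  have e6 : D * √m ≤ MM * √m := mul_le_mul_of_nonneg_right hDM h0.le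
  have e7 : 0 ≤ N0 * √m := by positivity
  have e8 : 0 ≤ D * √m := by positivity
  calc ez⁻¹ * (5 * Xx + 4 * (√m)⁻¹ * Xx + √m * Xm) + Xc
      = ez⁻¹ * (5 * Xx) + ez⁻¹ * (4 * (√m)⁻¹ * Xx) + ez⁻¹ * (√m * Xm) + Xc := by ring
    _ ≤ 5 * (N0 * m) + 4 * (N0 * √m) + √m * (B0 * D) +
        ((1 + P) * (N0 * m) + √m * (B1 * D)) := by
        rw [e1, e2]
        linarith
    _ ≤ 5 * (N0 * √m) + 4 * (N0 * √m) + √m * (B0 * D) +
        ((1 + P) * (N0 * √m) + √m * (B1 * D)) := by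
        have := mul_le_mul_of_nonneg_left e5 (by linarith : (0 : ℝ) ≤ 1 + P)
        linarith
    _ = (10 + P) * (N0 * √m) + (B0 + B1) * (D * √m) := by ring
    _ ≤ (10 + P + B0 + B1) * (N0 * √m) + (10 + P + B0 + B1) * (MM * √m) := by
        refine add_le_add (mul_le_mul_of_nonneg_right (by linarith) e7) ?_
        calc (B0 + B1) * (D * √m) ≤ (10 + P + B0 + B1) * (D * √m) :=
              mul_le_mul_of_nonneg_right (by linarith) e8
          _ ≤ _ := mul_le_mul_of_nonneg_left e6 (by linarith)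
    _ = _ := by ring

end

end Vale.Agent.P141.H863
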