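import Vale.Agent.P141.H863.PhiZ2
import Vale.Agent.P141.H863.PhiZ3
import Vale.Agent.P141.H277.PhiS
import Vale.Agent.P141.H550.CrZ
import Vale.Agent.P141.H811.NumZ
import Vale.Agent.P141.H76.CapZ
import Vale.Agent.P141.H900.NumAB
import Vale.Agent.P141.H170.PairT
import Vale.Agent.P141.H204.FibD
import Vale.Agent.P141.H636.FibF

/-!
# P141, line (A), flow part: the pair (third slot, first slot) at class data

* `MassZ` : the mass of the third slot at every `x0`;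
* `numA_smul` : the number of the first slot does not see a factor of the third one;
* `phiZ_FD` : `PartS FD PhiZ`; `PartS.of_sub` : a smaller bundle.
-/

namespace Vale.Agent.P141.H863

open Finset Matrix Vale.Agent.P141.PL
open Vale.Agent.P141.PL.H315 (Tri)
open Vale.Agent.P141.H48 (US ES)
open Vale.Agent.P141.H305 (ClsM Cls kapM)
open Vale.Agent.P141.H401 (Bun)
open Vale.Agent.P141.H747 (shA shB shC RgS)
open Vale.Agent.P141.H43 (nsq nsq_nonneg)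
open Vale.Agent.P141.H43.Seam
open Vale.Agent.P141.H505.Sk1
open Vale.Agent.P141.H677 (rt)
open Vale.Agent.P141.H677.Sk
open Vale.Agent.P141.H795 (ys)
open Vale.Agent.P141.H186.PS
open Vale.Agent.P141.H277.Phi

noncomputable section

open scoped Classical

set_option linter.unusedVariables false

/-- **The mass of the third slot**, one number for every `x0`. -/
def MassZ : Prop :=
  ∀ (ι : Type) [Fintype ι] [DecidableEq ι] (q : H401.Num) (n : ℕ) (ez : ℝ)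
    (F1 F2 F3 : ℕ → Pt → ℝ) (K : ℕ) (x : Pt) (s r P : ℝ) (U : Tri) (g : ℤ → ℤ → ℝ)
    (u v : ℤ → ℤ → ι → ℝ) (A : FamA) (b C : FamV ι) (Q1 Q2 Q3 : ℕ → Pt → Prop)
    (v' : ℤ → ℤ → ι → ℝ), FDs q n ez F1 F2 F3 K x s r U g u v A b C Q1 Q2 Q3 v' →
    Cls K x s r P U g u v → 0 < q.t → 0 < s → 0 < ez → 0 ≤ q.cP → K ≤ n →
    ∃ Mx : ℤ → ℝ, (∀ x0, 0 ≤ Mx x0) ∧
      (∀ x0, ∀ j ≤ K, ∑ x1 ∈ iv K (cx K x).1, ∑ z ∈ iv K (cx K x).2.2, nsq (C x0 j z x1) ≤ Mx x0) ∧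
      ∀ t, ∑ x0 ∈ iv K t, Mx x0 ≤ 4 * ez * q.Lm * s * (q.cP + 3) * 8 ^ K

section smul

variable {κ : Type} [Fintype κ] [DecidableEq κ]

omit [Fintype κ] [DecidableEq κ] in
theorem ch_smul {w : ℝ} (hw : w ≠ 0) (c : ℕ → ℤ → ℤ → κ → ℝ) (k : ℕ) (n m : ℤ) :
    Ch (fun k x z => w • c k x z) k n m ↔ Ch c k n m := by
  unfold H505.Sk1.Ch
  refine exists_congr fun x => and_congr_right fun _ => exists_congr fun z =>
    and_congr_right fun _ => not_congr ⟨fun h => ?_, fun h => ?_⟩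
  · have h1 := congrArg (fun a => w⁻¹ • a) h
    simpa only [smul_smul, inv_mul_cancel₀ hw, one_smul] using h1
  · simp only [h]

omit [Fintype κ] [DecidableEq κ] in
theorem numA_smul {k₀ N : ℕ} {r1 r2 r3 : ℤ} {pl : ℕ → ℤ} {A : ℕ → ℤ → ℤ → ℝ}
    {c : ℕ → ℤ → ℤ → κ → ℝ} {t2 EA w : ℝ} (hw : w ≠ 0) (h : NumA k₀ N r1 r2 r3 pl A c t2 EA) :
    NumA k₀ N r1 r2 r3 pl A (fun k x z => w • c k x z) t2 EA where
  cap := h.cap
  en := h.en
  born := h.born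
  cr := by
    refine le_trans (le_of_eq ?_) h.cr
    refine sum_congr rfl fun k _ => ?_
    congr 1
    funext n2 n1 m
    exact if_congr (ch_smul hw c k n1 m) rfl rfl

end smul

/-- the constant -/
def XZ (cP CD : ℝ) : ℝ :=
  560100 + 13 * H550.CrZ.PN cP + 12 * (cP + 3) + 147 * CD * (cP + 3)

/-- **Hub `x3`, the pair (third slot, first slot), at class data.** -/
theorem phiZ_FD (hMass : MassZ) : PartS FD PhiZ := by
  intro a ha ha1
  refine ⟨1, one_pos, le_rfl, fun e0 he0 he0' => ⟨1, one_pos, fun k8 hk8 hk8' =>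
    ⟨1, one_pos, fun k3 hk3 hk3' => ⟨1, 1, one_pos, one_pos,
      fun c hc hcc d hd hdd Kt e cP L hK he hcP hL CD hCD => ?_⟩⟩⟩⟩
  have hPN : 0 ≤ H550.CrZ.PN cP := by
    unfold H550.CrZ.PN
    positivity
  have hc3 : 0 ≤ 147 * CD * (cP + 3) := by positivity
  have hX1 : 560100 ≤ XZ cP CD := by
    unfold XZ
    linarith
  refine ⟨XZ cP CD, by linarith, ?_⟩
  intro t ht ht1 n ez F1 F2 F3 h1 h3 h2 o ho K hKn x ι _ _ s r U g u v hs hr hcls A b' C' hD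
    R κ E hκ hE hEL hsl h hh j hj q hq
  obtain ⟨Q1, Q2, Q3, v', hD⟩ := hD
  intro hez m N0 hm0 hm1 hN0 hNX
  set p : H401.Num := ⟨a, e0, k8, k3, c, d, Kt, e, cP, L, CD, t⟩ with hp
  have hLm : 0 ≤ p.Lm := Real.rpow_nonneg ht.le _
  have hR : ∀ x0 z x1, (R x0 0 z x1)ᵀ = R x0 0 z x1 := fun x0 z x1 =>
    hsl.symm x0 0 (Nat.zero_le K) z x1
  have hcap : ∀ x0 z x1, ∀ w, nsq (R x0 0 z x1 *ᵥ w) ≤ κ ^ 2 * nsq w := fun x0 z x1 w =>
    hsl.cap x0 0 (Nat.zero_le K) z x1 w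
  have hth : 0 < p.th s r := by
    unfold H401.Num.th
    have := Real.rpow_pos_of_pos ht (1 - k3)
    have := Real.rpow_pos_of_pos hs (1 / 4)
    have := Real.rpow_pos_of_pos (lt_of_lt_of_le one_pos hr) k3
    positivity
  have hτ : 0 < tS p s r := by
    unfold H277.Phi.tS
    exact Real.sqrt_pos.2 (by positivity)
  have hτ2 : tS p s r ^ 2 = 4 * p.th s r ^ 2 := by
    unfold H277.Phi.tS
    exact Real.sq_sqrt (by positivity)
  set ε : ℝ := m ^ (1 / 4 : ℝ) with hε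
  have hε0 : 0 < ε := Real.rpow_pos_of_pos hm0 _
  have hε2 : ε ^ 2 = √m := by
    rw [hε, Real.sqrt_eq_rpow, ← Real.rpow_natCast, ← Real.rpow_mul hm0.le]
    norm_num
  have hε1 : ε ^ 2 ≤ 1 := by
    rw [hε2]
    exact Real.sqrt_le_one.2 hm1
  have hz : 0 < √ez := Real.sqrt_pos.2 hez
  have hν : ((√ez)⁻¹) ^ 2 = ez⁻¹ := by
    rw [inv_pow, Real.sq_sqrt hez.le]
  set cC : ℝ := √(64 * (ε ^ 2 + κ ^ 2) * √(p.Lm * s)) with hcC
  have hcC2 : cC ^ 2 = 64 * (ε ^ 2 + κ ^ 2) * √(p.Lm * s) := by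
    rw [hcC]
    exact Real.sq_sqrt (by positivity)
  have hcH : cC ^ 2 ≤ HH p r κ (XZ cP CD) * tS p s r ^ 2 := by
    rw [hcC2, hτ2]
    exact cap_le ht ht1 hr hs hκ hk3.le (by linarith : d ≤ 2) (by linarith) (by linarith)
  obtain ⟨Mx, hMx0, hMx, hMs⟩ := hMass ι p n ez F1 F2 F3 K x s r _ U g u v A b' C' Q1 Q2 Q3 v' hD
    hcls.toCls ht hs hez hcP hKn
  rw [mem_Icc] at hj
  obtain ⟨Ec, hEc0, hEcs, hEc⟩ := H550.CrZ.cross_born hD hcls.toCls hez hLm hs.le hcP hKn ho hj.1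
    hj.2 h q hNX ε
  have hrt : ∀ {f : ℤ → ℝ} {B : ℝ}, (∀ t', f t' ≤ B) → ∑ t' ∈ rt (cx K x), f t' ≤ 3 * B := by
    intro f B hf
    refine (sum_le_card_nsmul (rt (cx K x)) _ B fun t' _ => hf t').trans (le_of_eq ?_)
    have h3 : (rt (cx K x)).card = 3 := by
      unfold H677.rt
      rw [Int.card_Icc]
      omega
    rw [h3, nsmul_eq_mul]
    norm_num
  obtain ⟨En, hEn0, hEns, hEn⟩ := H811.num_z (A := A) (b := b') (ν := (√ez)⁻¹) (cC := cC)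
    hε0 hNX hR q (fun x0 k => ix k (ys (-x0) h) - j) hMx0 hEc0 (fun _ _ x0 _ => hMx x0)
    (hrt hMs) hEcs
    (fun _ _ x0 _ => (hEc x0).2) (fun _ _ x0 _ => (hEc x0).1)
    (fun _ _ x0 _ k a' n' m' hk ha' j' _ hj' _ _ =>
      H76.cap_z hD hcls.toCls ht hs.le hez hKn h x0 (hR x0) (hcap x0) hcC2.ge k a' n' m' hk ha'
        j' hj')
  obtain ⟨EA, hEA0, hEA, hEAs⟩ := H900.Num.numA_TF hD hKn (by positivity) h j
  have hMM : p.Lm * s * 8 ^ K ≤ MM p s r κ K :=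
    lm_le ht ht1 hc hd.le hs.le (lgS_one (q := p) ht ht1 hr hκ) (by positivity)
  have hD0 : 0 ≤ p.Lm * s * 8 ^ K := by positivity
  have hMM0 : 0 ≤ MM p s r κ K := hD0.trans hMM
  have hB1 : ∑ t' ∈ rt (cx K x), ∑ x0 ∈ iv K t', En x0 ≤
      XZ cP CD * (N0 + MM p s r κ K) * √m := by
    refine hEns.trans ((num_line (P := H550.CrZ.PN cP) (B0 := 12 * (cP + 3))
      (B1 := 12 * H550.CrZ.PN cP) (D := p.Lm * s * 8 ^ K) (MM := MM p s r κ K) hez hν hm0 hm1 hε2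
      hN0 hPN (by positivity) (by positivity) hD0 hMM rfl (le_of_eq ?_) (le_of_eq ?_)).trans ?_)
    · ring
    · ring
    · refine mul_le_mul_of_nonneg_right (mul_le_mul_of_nonneg_right ?_ (by linarith))
        (Real.sqrt_nonneg _)
      unfold XZ
      linarith
  have hB2 : ∑ t' ∈ rt (cx K x), ∑ x0 ∈ iv K t', EA x0 ≤ XZ cP CD * (N0 + MM p s r κ K) := by
    refine (hrt hEAs).trans ?_
    calc 3 * (49 * (CD * (p.Lm * s)) * (cP + 3) * 8 ^ K) =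
        (147 * CD * (cP + 3)) * (p.Lm * s * 8 ^ K) := by ring
      _ ≤ (147 * CD * (cP + 3)) * (N0 + MM p s r κ K) :=
        mul_le_mul_of_nonneg_left (by linarith) hc3
      _ ≤ _ := by
        refine mul_le_mul_of_nonneg_right ?_ (by linarith)
        unfold XZ
        linarith
  have hmain := phiZ_one (M := cx K x) (A := A) (b := b') (C := C') H170.PairT.pairACr
    (by norm_num) hm0 hm1 hτ (HH_one (q := p) ht ht1 hr hκ (by linarith : 1 ≤ XZ cP CD))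
    (by linarith : 8 * 70000 ≤ XZ cP CD) h (mem_Icc.2 hj) q hR hEn0 hEA0 hcH hEn
    (fun t' _ x0 _ => by
      rw [hτ2]
      exact numA_smul (inv_ne_zero hz.ne') (hEA x0 _ _ _)) hB1 hB2
  exact hmain

/-- **A smaller bundle.** -/
theorem partS_sub {D D' : Bun} {Φ : SlotSt}
    (hsub : ∀ (ι : Type) [Fintype ι] [DecidableEq ι] (p : H401.Num) (n : ℕ) (ez : ℝ)
      (F1 F2 F3 : ℕ → Pt → ℝ) (o : ℤ) (K : ℕ) (x : Pt) (s r : ℝ) (U : Tri) (g : ℤ → ℤ → ℝ)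
      (u v : ℤ → ℤ → ι → ℝ) (A : ℤ → ℕ → ℤ → ℤ → ℝ) (b C : ℤ → ℕ → ℤ → ℤ → ι → ℝ),
      D' ι p n ez F1 F2 F3 o K x s r U g u v A b C → D ι p n ez F1 F2 F3 o K x s r U g u v A b C)
    (H : PartS D Φ) : PartS D' Φ := by
  intro a ha ha1
  obtain ⟨es, hes, hes1, H⟩ := H a ha ha1
  refine ⟨es, hes, hes1, fun e0 he0 he0' => ?_⟩
  obtain ⟨k8s, hk8s, H⟩ := H e0 he0 he0'
  refine ⟨k8s, hk8s, fun k8 hk8 hk8' => ?_⟩
  obtain ⟨k3s, hk3s, H⟩ := H k8 hk8 hk8'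
  refine ⟨k3s, hk3s, fun k3 hk3 hk3' => ?_⟩
  obtain ⟨c1, d1, hc1, hd1, H⟩ := H k3 hk3 hk3'
  refine ⟨c1, d1, hc1, hd1, fun c hc hcc d hd hdd Kt e cP L hK he hcP hL CD hCD => ?_⟩
  obtain ⟨C, hC, H⟩ := H c hc hcc d hd hdd Kt e cP L hK he hcP hL CD hCD
  refine ⟨C, hC, ?_⟩
  intro t ht ht1 n ez F1 F2 F3 h1 h3 h2 o ho K hKn x ι _ _ s r U g u v hs hr hcls A b' C' hD
    R κ E hκ hE hEL hsl h hh j hj q hq
  exact H t ht ht1 n ez F1 F2 F3 h1 h3 h2 o ho K hKn x ι s r U g u v hs hr hcls A b' C'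
    (hsub _ _ _ _ _ _ _ _ _ _ _ _ _ _ _ _ _ _ _ hD) R κ E hκ hE hEL hsl h hh j hj q hq

/-- **The pair with the fibres** (`H204.Fib.FDU`). -/
theorem phiZ_FDU (hMass : MassZ) : PartS H204.Fib.FDU PhiZ :=
  partS_sub (fun ι _ _ p n ez F1 F2 F3 o K x s r U g u v A b C h => h.2.2) (phiZ_FD hMass)

end

end Vale.Agent.P141.H863
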