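import Vale.Agent.P141.H863.PhiZ0
import Vale.Agent.P141.H677.FDb

/-!
# P141, line (A), flow part: the pair (third slot, first slot), every level at once

* `shC_smul` : the translated family times a number;
* `phiZ_core` : the bound at every level above `m ^ (1/4) τ`, from the numbers at every `x0`;
* `cap_le` : the cap of the stack in the units of the stage.
-/

namespace Vale.Agent.P141.H863

open Finset Matrix Vale.Agent.P075 Vale.Agent.P141.PL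
open Vale.Agent.P141.PL.H588 (hd Pl)
open Vale.Agent.P141.H958 (lbs)
open Vale.Agent.P141.H609 (NM)
open Vale.Agent.P141.H103 (GW QW PA)
open Vale.Agent.P141.H747 (sL sG RgS MA MC shA shB shC)
open Vale.Agent.P141.H43.Seam
open Vale.Agent.P141.H505.Sk1
open Vale.Agent.P141.H677.Sk (FamA FamV Slt)
open Vale.Agent.P141.H795 (ys)
open Vale.Agent.P141.H581 (RX)

noncomputable section

variable {κ : Type} [Fintype κ] [DecidableEq κ]

variable {L : ℕ} {e : κ ⊕ κ → ℤ} {K : ℕ} {M : Pt} {R : Slt κ} {A : FamA} {b C : FamV κ}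

omit [Fintype κ] [DecidableEq κ] in
theorem shC_smul (w : ℝ) (K : ℕ) (M s : Pt) (F : ℕ → ℤ → ℤ → κ → ℝ) (k : ℕ) (z x : ℤ) :
    shC K M s (fun k z x => w • F k z x) k z x = w • shC K M s F k z x := by
  unfold H747.shC H747.sft
  split_ifs
  · rfl
  · rw [smul_zero]

/-- **The pair at every level above `m ^ (1/4) τ`**, families stopped at `K`, third slot times
`w`. -/
theorem phiZ_core {K₀ : ℝ} (hP : PairACr K₀) (hK₀ : 0 ≤ K₀) {m τ H w : ℝ} (hm0 : 0 < m)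
    (hm1 : m ≤ 1) (hτ : 0 < τ) (hH : 1 ≤ H) (s : Pt) {j : ℤ} (hj : j ∈ Icc (0 : ℤ) 2) (q : Pt)
    (t : ℤ) (hR : ∀ x0 ∈ iv K t, ∀ z x, (R x0 0 z x)ᵀ = R x0 0 z x) {E EA : ℤ → ℝ} {cC : ℝ}
    (hE : ∀ x0 ∈ iv K t, 0 ≤ E x0) (hEA : ∀ x0 ∈ iv K t, 0 ≤ EA x0)
    (hcC : cC ^ 2 ≤ H * τ ^ 2)
    (hN : ∀ x0 ∈ iv K t, Num 0 K (M.1 - q.1) (M.2.1 - q.2.1) (M.2.2 - q.2.2)
      (fun k => ix k (ys (-x0) s) - j) (fun k y z => shA K M s (A x0) (min k K) z y)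
      (fun k x y => shB K M s (b x0) (min k K) x y)
      (fun k x z => w • shC K M s (C x0) (min k K) z x)
      (WQ (m ^ (1 / 4 : ℝ)) (RgS R s.2.2 s.1 x0)) (MQ (RgS R s.2.2 s.1 x0)) (fun _ _ _ => 0)
      (E x0) cC)
    (hNA : ∀ x0 ∈ iv K t, NumA 0 K (M.1 - q.1) (M.2.1 - q.2.1) (M.2.2 - q.2.2)
      (fun k => ix k (ys (-x0) s) - j) (fun k y z => shA K M s (A x0) (min k K) z y)
      (fun k x z => w • shC K M s (C x0) (min k K) z x) (τ ^ 2) (EA x0))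
    (he : Function.Injective e) (hm : ∀ i, e i ∈ lbs L) (x : ℝ)
    (hx : m ^ (1 / 4 : ℝ) * τ ≤ x) :
    RX (iv K t) (K + L) (fun x0 => sL L (sG K M (-x0) s j q)) x τ
      (MC K M R (fun x0 k z x => w • C x0 k z x) L e (m ^ (1 / 4 : ℝ)) s) (MA K M A L s) ≤
    4 ^ L * (8 * K₀ * (1 + Real.log (H / m)) ^ 3 * (√(x ^ 2 * (∑ x0 ∈ iv K t, E x0) *
      (τ ^ 2 * ∑ x0 ∈ iv K t, EA x0)) + τ ^ 2 * ∑ x0 ∈ iv K t, E x0)) := by
  obtain ⟨J, hJ, hJ3⟩ := levels hτ hm0 hm1 hH hcC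
  have hq : 0 < m ^ (1 / 4 : ℝ) := Real.rpow_pos_of_pos hm0 _
  have hx0 : 0 < x := lt_of_lt_of_le (by positivity) hx
  refine (RX_z_pair hP hK₀ he hm hq s t hj q hR (fun x0 _ k hk => ?_) (fun x0 _ k hk => ?_) hE
    hEA hN hNA hx0 hτ (by positivity) (hJ x hx)).trans
    (mul_le_mul_of_nonneg_left ?_ (by positivity))
  · funext y z
    rw [min_eq_left (Nat.succ_le_of_lt hk)]
  · funext x z
    rw [min_eq_left (Nat.succ_le_of_lt hk)]
    exact (shC_smul w K M s (C x0) (k + 1) z x).symm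
  · refine mul_le_mul_of_nonneg_right ?_ ?_
    · calc K₀ * ((J : ℝ) + 1) ^ 3 ≤ K₀ * (8 * (1 + Real.log (H / m)) ^ 3) :=
            mul_le_mul_of_nonneg_left hJ3 hK₀
        _ = _ := by ring
    · exact add_nonneg (Real.sqrt_nonneg _)
        (mul_nonneg (by positivity) (sum_nonneg hE))

/-- **The cap of the stack in the units of the stage.** -/
theorem cap_le {t r s κ k3 d X θ : ℝ} (ht : 0 < t) (ht1 : t ≤ 1) (hr : 1 ≤ r) (hs : 0 < s)
    (hκ : 1 ≤ κ) (hk3 : 0 ≤ k3) (hd2 : d ≤ 2) (hX : 32 ≤ X) (hθ : θ ≤ 1 + κ ^ 2) :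
    64 * θ * √(t ^ (-d) * s) ≤
      (X * κ * (r / t)) ^ ⌈X⌉₊ * (4 * (t ^ (1 - k3) * s ^ (1 / 4 : ℝ) * r ^ k3) ^ 2) := by
  have h1 : √(t ^ (-d) * s) ≤ t⁻¹ * √s := by
    rw [Real.sqrt_mul (Real.rpow_nonneg ht.le _)]
    refine mul_le_mul_of_nonneg_right ?_ (Real.sqrt_nonneg _)
    refine Real.sqrt_le_iff.2 ⟨by positivity, ?_⟩
    rw [← Real.rpow_neg_one, ← Real.rpow_natCast, ← Real.rpow_mul ht.le]
    exact Real.rpow_le_rpow_of_exponent_ge ht ht1 (by push_cast; linarith)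
  have h2 : t ^ 2 * √s ≤ (t ^ (1 - k3) * s ^ (1 / 4 : ℝ) * r ^ k3) ^ 2 := by
    have e1 : (s ^ (1 / 4 : ℝ)) ^ 2 = √s := by
      rw [Real.sqrt_eq_rpow, ← Real.rpow_natCast, ← Real.rpow_mul hs.le]
      norm_num
    have e2 : t ≤ t ^ (1 - k3) := by
      have := Real.rpow_le_rpow_of_exponent_ge ht ht1 (show 1 - k3 ≤ 1 by linarith)
      rwa [Real.rpow_one] at this
    have e3 : 1 ≤ r ^ k3 := Real.one_le_rpow hr hk3
    have e4 : t ≤ t ^ (1 - k3) * r ^ k3 := by nlinarith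
    calc t ^ 2 * √s ≤ (t ^ (1 - k3) * r ^ k3) ^ 2 * √s :=
          mul_le_mul_of_nonneg_right (pow_le_pow_left₀ ht.le e4 2) (Real.sqrt_nonneg _)
      _ = _ := by rw [← e1]; ring
  have h3 : (1 : ℝ) ≤ X * κ := by nlinarith
  have hρ : t⁻¹ ≤ r / t := by
    rw [inv_eq_one_div]
    exact div_le_div_of_nonneg_right hr ht.le
  have ht' : 1 ≤ t⁻¹ := (one_le_inv₀ ht).2 ht1
  have h4 : X * κ * t⁻¹ ≤ X * κ * (r / t) := mul_le_mul_of_nonneg_left hρ (by linarith)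
  have h5 : (1 : ℝ) ≤ X * κ * (r / t) := by nlinarith
  have h6 : (X * κ * t⁻¹) ^ 3 ≤ (X * κ * (r / t)) ^ ⌈X⌉₊ := by
    refine (pow_le_pow_left₀ (by positivity) h4 3).trans (pow_le_pow_right₀ h5 ?_)
    have : (3 : ℝ) ≤ ⌈X⌉₊ := (by linarith : (3 : ℝ) ≤ X).trans (Nat.le_ceil X)
    exact_mod_cast this
  have hs0 := Real.sqrt_nonneg s
  calc 64 * θ * √(t ^ (-d) * s) ≤ 64 * (2 * κ ^ 2) * (t⁻¹ * √s) := by
        refine mul_le_mul ?_ h1 (Real.sqrt_nonneg _) (by positivity)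
        nlinarith
    _ ≤ (X * κ * t⁻¹) ^ 3 * (4 * (t ^ 2 * √s)) := by
        have e : (X * κ * t⁻¹) ^ 3 * (4 * (t ^ 2 * √s)) = 4 * X ^ 3 * κ ^ 3 * (t⁻¹ * √s) := by
          field_simp
        rw [e]
        refine mul_le_mul_of_nonneg_right ?_ (by positivity)
        have e1 : (32 : ℝ) ^ 3 ≤ X ^ 3 := pow_le_pow_left₀ (by norm_num) hX 3
        have e2 : κ ^ 2 ≤ κ ^ 3 := pow_le_pow_right₀ hκ (by norm_num)
        have e3 : 0 < κ ^ 2 := by positivity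
        nlinarith
    _ ≤ _ := mul_le_mul h6 (mul_le_mul_of_nonneg_left h2 (by norm_num)) (by positivity)
        (by positivity)

end

end Vale.Agent.P141.H863
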