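import Vale.Agent.P141.H43.SeamPM
import Vale.Agent.P141.H505.SkelStack1

/-!
# P141, line (A), flow part: the pair (third slot, first slot) summed over `x0`

* `sum_sqrt` : Cauchy and Schwarz over the family;
* `wgt_R` : the weight of the averaged slot;
* `RX_z_pair` : the sum over `x0` of the raw pair from the numbers at every `x0`;
* `exists_J` : the number of levels.
-/

namespace Vale.Agent.P141.H863

open Finset Matrix Vale.Agent.P075 Vale.Agent.P141.PL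
open Vale.Agent.P141.PL.H588 (hd Pl)
open Vale.Agent.P141.H958 (lbs)
open Vale.Agent.P141.H609 (NM)
open Vale.Agent.P141.H103 (GW QW PA)
open Vale.Agent.P141.H747 (sL sG RgS MA MC shA shC)
open Vale.Agent.P141.H585.PairCh (phs)
open Vale.Agent.P141.H389 (gAC)
open Vale.Agent.P141.H43.Seam
open Vale.Agent.P141.H505.Sk1
open Vale.Agent.P141.H677.Sk (FamA FamV Slt)
open Vale.Agent.P141.H795 (ys)
open Vale.Agent.P141.H581 (RX)

noncomputable section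

variable {κ : Type} [Fintype κ] [DecidableEq κ]

/-- Cauchy and Schwarz for square roots of products. -/
theorem sum_sqrt {X : Type*} (I : Finset X) {a b : X → ℝ} (ha : ∀ i ∈ I, 0 ≤ a i)
    (hb : ∀ i ∈ I, 0 ≤ b i) : ∑ i ∈ I, √(a i * b i) ≤ √((∑ i ∈ I, a i) * ∑ i ∈ I, b i) := by
  classical
  have h := Real.sum_sqrt_mul_sqrt_le I (f := fun i => if i ∈ I then a i else 0)
    (g := fun i => if i ∈ I then b i else 0) (fun i => by
      split_ifs with hi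
      · exact ha i hi
      · exact le_rfl) (fun i => by
      split_ifs with hi
      · exact hb i hi
      · exact le_rfl)
  have e1 : ∑ i ∈ I, (if i ∈ I then a i else 0) = ∑ i ∈ I, a i :=
    sum_congr rfl fun i hi => if_pos hi
  have e2 : ∑ i ∈ I, (if i ∈ I then b i else 0) = ∑ i ∈ I, b i :=
    sum_congr rfl fun i hi => if_pos hi
  rw [e1, e2] at h
  rw [Real.sqrt_mul (sum_nonneg ha)]
  refine le_trans (le_of_eq (sum_congr rfl fun i hi => ?_)) h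
  rw [if_pos hi, if_pos hi, Real.sqrt_mul (ha i hi)]

variable {L : ℕ} {e : κ ⊕ κ → ℤ} {K : ℕ} {M : Pt} {R : Slt κ} {A : FamA} {C : FamV κ}

omit [Fintype κ] [DecidableEq κ] in
theorem RgS_symm {x0 : ℤ} (hR : ∀ z x, (R x0 0 z x)ᵀ = R x0 0 z x) (h h1 : ℤ) (k : ℕ)
    (n x : ℤ) : (RgS R h h1 x0 k n x)ᵀ = RgS R h h1 x0 k n x := by
  unfold H747.RgS
  rw [transpose_smul, transpose_sum]
  congr 1
  exact sum_congr rfl fun w _ => hR _ _

/-- **The weight of the averaged slot.** -/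
theorem wgt_R {ε : ℝ} (hε : 0 < ε) {x0 : ℤ} (hR : ∀ z x, (R x0 0 z x)ᵀ = R x0 0 z x)
    (h h1 : ℤ) (N : ℕ) :
    Wgt N (ε ^ 2) (WQ ε (RgS R h h1 x0)) (NQ (RgS R h h1 x0)) (MQ (RgS R h h1 x0))
      (fun _ _ _ => 0) where
  pos := by positivity
  ge x k m := by
    unfold H43.Seam.WQ
    rw [add_sub_cancel_left]
    have := posSemidef_conjTranspose_mul_self (RgS R h h1 x0 k m x)
    rwa [conjTranspose_eq_transpose_of_trivial] at this
  wf := wf_Q N hε.ne' (fun k n x => RgS_symm hR h h1 k n x) (H747.RgS_mart R h h1 x0)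

/-- **The pair of hub `x3`, all `x0`, from the numbers at every `x0`.** -/
theorem RX_z_pair {K₀ : ℝ} (hP : PairACr K₀) (hK₀ : 0 ≤ K₀) (he : Function.Injective e)
    (hm : ∀ i, e i ∈ lbs L) {ε : ℝ} (hε : 0 < ε) (s : Pt) (t : ℤ) {j : ℤ}
    (hj : j ∈ Icc (0 : ℤ) 2) (q : Pt)
    (hR : ∀ x0 ∈ iv K t, ∀ z x, (R x0 0 z x)ᵀ = R x0 0 z x)
    {A' : ℤ → ℕ → ℤ → ℤ → ℝ} {b' c' : ℤ → ℕ → ℤ → ℤ → κ → ℝ}
    (hA' : ∀ x0 ∈ iv K t, ∀ k, k < K → A' x0 (k + 1) = fun y z => shA K M s (A x0) (k + 1) z y)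
    (hc' : ∀ x0 ∈ iv K t, ∀ k, k < K → c' x0 (k + 1) = fun x z => shC K M s (C x0) (k + 1) z x)
    {E EA : ℤ → ℝ} {cC t2 x y : ℝ} {J : ℕ}
    (hE : ∀ x0 ∈ iv K t, 0 ≤ E x0) (hEA : ∀ x0 ∈ iv K t, 0 ≤ EA x0)
    (hN : ∀ x0 ∈ iv K t, Num 0 K (M.1 - q.1) (M.2.1 - q.2.1) (M.2.2 - q.2.2)
      (fun k => ix k (ys (-x0) s) - j) (A' x0) (b' x0) (c' x0) (WQ ε (RgS R s.2.2 s.1 x0))
      (MQ (RgS R s.2.2 s.1 x0)) (fun _ _ _ => 0) (E x0) cC)
    (hNA : ∀ x0 ∈ iv K t, NumA 0 K (M.1 - q.1) (M.2.1 - q.2.1) (M.2.2 - q.2.2)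
      (fun k => ix k (ys (-x0) s) - j) (A' x0) (c' x0) t2 (EA x0))
    (hx : 0 < x) (hy : 0 < y) (ht2 : 0 < t2) (hJ : cC ^ 2 ≤ 4 ^ J * x ^ 2) :
    RX (iv K t) (K + L) (fun x0 => sL L (sG K M (-x0) s j q)) x y (MC K M R C L e ε s)
      (MA K M A L s) ≤
    4 ^ L * (K₀ * (J + 1) ^ 3 * (√(x ^ 2 * (∑ x0 ∈ iv K t, E x0) *
      (t2 * ∑ x0 ∈ iv K t, EA x0)) + t2 * ∑ x0 ∈ iv K t, E x0)) := by
  refine (RX_z K M R A C he hm ε s t j q x hy).trans (mul_le_mul_of_nonneg_left ?_ (by positivity))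
  have h1 : ∀ x0 ∈ iv K t, ∑ k ∈ Ico 0 K,
      GW K (M.2.1 - q.2.1) (M.2.2 - q.2.2) (M.1 - q.1) (k + 1) (ix (k + 1) (ys (-x0) s) - j)
        (gAC (fun y z => shA K M s (A x0) (k + 1) z y) (fun x z => shC K M s (C x0) (k + 1) z x)
          (WQ ε (RgS R s.2.2 s.1 x0)) (x ^ 2) k (k + 1) (k + 1)) ≤
      K₀ * (J + 1) ^ 3 * (√((x ^ 2 * E x0) * (t2 * EA x0)) + t2 * E x0) := by
    intro x0 h0
    refine le_trans (le_of_eq ?_) (hP 0 K (M.1 - q.1) (M.2.1 - q.2.1) (M.2.2 - q.2.2)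
      (fun k => ix k (ys (-x0) s) - j) (ε ^ 2) (A' x0) (b' x0) (c' x0)
      (WQ ε (RgS R s.2.2 s.1 x0)) (NQ (RgS R s.2.2 s.1 x0)) (MQ (RgS R s.2.2 s.1 x0))
      (fun _ _ _ => 0) (E x0) (EA x0) cC t2 (x ^ 2) J (Nat.zero_le K) (pl_grid x0 s hj)
      (wgt_R hε (hR x0 h0) s.2.2 s.1 K) (hN x0 h0) (hNA x0 h0) (by positivity) ht2 hJ)
    refine sum_congr rfl fun k hk => ?_
    rw [mem_Ico] at hk
    rw [hA' x0 h0 k hk.2, hc' x0 h0 k hk.2]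
    congr 1
  refine (sum_le_sum h1).trans ?_
  rw [← mul_sum, sum_add_distrib, ← mul_sum]
  refine mul_le_mul_of_nonneg_left ?_ (by positivity)
  refine add_le_add ?_ le_rfl
  refine (sum_sqrt (iv K t) (fun i hi => ?_) fun i hi => ?_).trans (le_of_eq ?_)
  · exact mul_nonneg (by positivity) (hE i hi)
  · exact mul_nonneg ht2.le (hEA i hi)
  · rw [← mul_sum, ← mul_sum]

/-- **The number of levels.** -/
theorem exists_J {c a H : ℝ} (ha : 0 < a) (hH : 1 ≤ H) (hc : c ≤ H * a) :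
    ∃ J : ℕ, c ≤ 4 ^ J * a ∧ ((J : ℝ) + 1) ^ 3 ≤ 8 * (1 + Real.log H) ^ 3 := by
  have hl : 0 ≤ Real.log H := Real.log_nonneg hH
  refine ⟨⌈Real.log H⌉₊, ?_, ?_⟩
  · refine hc.trans (mul_le_mul_of_nonneg_right ?_ ha.le)
    have h1 : Real.log H ≤ (⌈Real.log H⌉₊ : ℝ) := Nat.le_ceil _
    have h2 : H = Real.exp (Real.log H) := (Real.exp_log (by linarith)).symm
    calc H = Real.exp (Real.log H) := h2
      _ ≤ Real.exp (⌈Real.log H⌉₊ : ℝ) := Real.exp_le_exp.2 h1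
      _ = Real.exp 1 ^ ⌈Real.log H⌉₊ := by rw [← Real.exp_nat_mul, mul_one]
      _ ≤ 4 ^ ⌈Real.log H⌉₊ := by
        refine pow_le_pow_left₀ (Real.exp_pos 1).le ?_ _
        have := Real.exp_one_lt_d9
        linarith
  · have h1 : (⌈Real.log H⌉₊ : ℝ) < Real.log H + 1 := Nat.ceil_lt_add_one hl
    calc ((⌈Real.log H⌉₊ : ℝ) + 1) ^ 3 ≤ (2 * (1 + Real.log H)) ^ 3 :=
          pow_le_pow_left₀ (by positivity) (by linarith) 3
      _ = 8 * (1 + Real.log H) ^ 3 := by ring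

/-- **Every level above `m ^ (1/4) τ`**, one number of levels. -/
theorem levels {cC τ m H : ℝ} (hτ : 0 < τ) (hm0 : 0 < m) (hm1 : m ≤ 1) (hH : 1 ≤ H)
    (hc : cC ^ 2 ≤ H * τ ^ 2) :
    ∃ J : ℕ, (∀ x, m ^ (1 / 4 : ℝ) * τ ≤ x → cC ^ 2 ≤ 4 ^ J * x ^ 2) ∧
      ((J : ℝ) + 1) ^ 3 ≤ 8 * (1 + Real.log (H / m)) ^ 3 := by
  have hq : 0 < m ^ (1 / 4 : ℝ) := Real.rpow_pos_of_pos hm0 _
  have h1 : m ≤ (m ^ (1 / 4 : ℝ)) ^ 2 := by
    rw [← Real.rpow_natCast, ← Real.rpow_mul hm0.le]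
    have := Real.rpow_le_rpow_of_exponent_ge hm0 hm1 (show (1 / 4 : ℝ) * ((2 : ℕ) : ℝ) ≤ 1 by norm_num)
    rwa [Real.rpow_one] at this
  have h2 : 1 ≤ H / m := by
    rw [le_div_iff₀ hm0]
    linarith
  obtain ⟨J, h3, h4⟩ := exists_J (c := cC ^ 2) (a := (m ^ (1 / 4 : ℝ) * τ) ^ 2) (H := H / m)
    (by positivity) h2 (by
      refine hc.trans ?_
      rw [mul_pow, ← mul_assoc]
      refine mul_le_mul_of_nonneg_right ?_ (by positivity)
      rw [div_mul_eq_mul_div, le_div_iff₀ hm0]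
      exact mul_le_mul_of_nonneg_left h1 (by linarith))
  refine ⟨J, fun x hx => h3.trans (mul_le_mul_of_nonneg_left ?_ (by positivity)), h4⟩
  exact pow_le_pow_left₀ (by positivity) hx 2

end

end Vale.Agent.P141.H863
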