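import Vale.Agent.P141.H863.PhiZ1

/-!
# P141, line (A), flow part: the pair (third slot, first slot) on every root, from one function of
`x0`
-/

namespace Vale.Agent.P141.H863

open Finset Matrix Vale.Agent.P075 Vale.Agent.P141.PL
open Vale.Agent.P141.H958 (lbs)
open Vale.Agent.P141.H747 (sL sG RgS MA MC shA shB shC)
open Vale.Agent.P141.H43.Seam
open Vale.Agent.P141.H505.Sk1
open Vale.Agent.P141.H677 (rt)
open Vale.Agent.P141.H677.Sk (FamA FamV Slt)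
open Vale.Agent.P141.H795 (ys)
open Vale.Agent.P141.H581 (RX)

noncomputable section

variable {κ : Type} [Fintype κ] [DecidableEq κ] {K : ℕ} {M : Pt} {R : Slt κ} {A : FamA}
  {b C : FamV κ}

/-- **The pair on every root, with numbers.** -/
theorem phiZ_one {K₀ : ℝ} (hP : PairACr K₀) (hK₀ : 0 ≤ K₀) {m τ H w X B1 B2 : ℝ} (hm0 : 0 < m)
    (hm1 : m ≤ 1) (hτ : 0 < τ) (hH : 1 ≤ H) (hX : 8 * K₀ ≤ X) (s : Pt) {j : ℤ}
    (hj : j ∈ Icc (0 : ℤ) 2) (q : Pt) (hR : ∀ x0 z x, (R x0 0 z x)ᵀ = R x0 0 z x)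
    {En EA : ℤ → ℝ} {cC : ℝ} (hE : ∀ x0, 0 ≤ En x0) (hEA : ∀ x0, 0 ≤ EA x0)
    (hcC : cC ^ 2 ≤ H * τ ^ 2)
    (hN : ∀ t ∈ rt M, ∀ x0 ∈ iv K t, Num 0 K (M.1 - q.1) (M.2.1 - q.2.1) (M.2.2 - q.2.2)
      (fun k => ix k (ys (-x0) s) - j) (fun k y z => shA K M s (A x0) (min k K) z y)
      (fun k x y => shB K M s (b x0) (min k K) x y)
      (fun k x z => w • shC K M s (C x0) (min k K) z x)
      (WQ (m ^ (1 / 4 : ℝ)) (RgS R s.2.2 s.1 x0)) (MQ (RgS R s.2.2 s.1 x0)) (fun _ _ _ => 0)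
      (En x0) cC)
    (hNA : ∀ t ∈ rt M, ∀ x0 ∈ iv K t, NumA 0 K (M.1 - q.1) (M.2.1 - q.2.1) (M.2.2 - q.2.2)
      (fun k => ix k (ys (-x0) s) - j) (fun k y z => shA K M s (A x0) (min k K) z y)
      (fun k x z => w • shC K M s (C x0) (min k K) z x) (τ ^ 2) (EA x0))
    (s1 : ∑ t ∈ rt M, ∑ x0 ∈ iv K t, En x0 ≤ B1) (s2 : ∑ t ∈ rt M, ∑ x0 ∈ iv K t, EA x0 ≤ B2) :
    ∀ t' ∈ rt M, ∀ (L : ℕ) (e : κ ⊕ κ → ℤ), Function.Injective e → (∀ i, e i ∈ lbs L) →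
      ∃ E E' : ℝ, 0 ≤ E ∧ 0 ≤ E' ∧ E ≤ B1 ∧ E' ≤ B2 ∧ ∀ x, m ^ (1 / 4 : ℝ) * τ ≤ x →
        RX (iv K t') (K + L) (fun x0 => sL L (sG K M (-x0) s j q)) x τ
          (MC K M R (fun x0 k z x => w • C x0 k z x) L e (m ^ (1 / 4 : ℝ)) s) (MA K M A L s) ≤
        4 ^ L * (X * (1 + Real.log (H / m)) ^ 3 * (√(x ^ 2 * E * (τ ^ 2 * E')) + τ ^ 2 * E)) := by
  intro t' ht' L e he hm
  have h2 : 1 ≤ H / m := by
    rw [le_div_iff₀ hm0]
    linarith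
  have hl : 0 ≤ Real.log (H / m) := Real.log_nonneg h2
  refine ⟨∑ x0 ∈ iv K t', En x0, ∑ x0 ∈ iv K t', EA x0, sum_nonneg fun _ _ => hE _,
    sum_nonneg fun _ _ => hEA _, ?_, ?_, fun x hx => ?_⟩
  · exact (single_le_sum (f := fun t => ∑ x0 ∈ iv K t, En x0)
      (fun t _ => sum_nonneg fun _ _ => hE _) ht').trans s1
  · exact (single_le_sum (f := fun t => ∑ x0 ∈ iv K t, EA x0)
      (fun t _ => sum_nonneg fun _ _ => hEA _) ht').trans s2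
  · refine (phiZ_core hP hK₀ hm0 hm1 hτ hH s hj q t' (fun x0 _ => hR x0) (fun x0 _ => hE x0)
      (fun x0 _ => hEA x0) hcC (hN t' ht') (hNA t' ht') he hm x hx).trans ?_
    refine mul_le_mul_of_nonneg_left (mul_le_mul_of_nonneg_right
      (mul_le_mul_of_nonneg_right hX (by positivity)) ?_) (by positivity)
    exact add_nonneg (Real.sqrt_nonneg _)
      (mul_nonneg (by positivity) (sum_nonneg fun _ _ => hE _))

end

end Vale.Agent.P141.H863
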