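import Vale.Agent.P141.H863.PhiZ
import Vale.Agent.P141.H76.MassZ

/-!
# P141, line (A), flow part: the pair (third slot, first slot) at class data, closed
-/

namespace Vale.Agent.P141.H863

open Vale.Agent.P141.H677.Sk (FD)
open Vale.Agent.P141.H186.PS
open Vale.Agent.P141.H277.Phi

noncomputable section

theorem massZ : MassZ := by
  intro ι _ _ q n ez F1 F2 F3 K x s r P U g u v A b C Q1 Q2 Q3 v' hD hC ht hs hez _ hKn
  obtain ⟨Mx, h0, h1, h2, _⟩ := H76.mass_z hD hC (Real.rpow_nonneg ht.le _) hs.le hez.le hKn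
  exact ⟨Mx, h0, h1, h2⟩

/-- **Hub `x3`, the pair (third slot, first slot)**, bundle `FD`. -/
theorem phiZ_closed_FD : PartS FD PhiZ := phiZ_FD massZ

/-- **Hub `x3`, the pair (third slot, first slot)**, bundle `FDU`. -/
theorem phiZ : PartS H204.Fib.FDU PhiZ := phiZ_FDU massZ

end

end Vale.Agent.P141.H863
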